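import Vale.Agent.Lib.P050.Fkg

/-!
# P050: Sidorenko's inequality for hosts given by increasing events on a distributive lattice

`P050.bip R` is the bipartite simple graph on `X ⊕ Y` with `inl x ~ inr y` iff `R x y`.
The pattern `H = bip RH` is an arbitrary connected bipartite graph with at least one edge.
The host `G = bip R` has as left part a finite distributive lattice `X` (a chain, a Boolean cube,
a product of chains, ...) and each neighbourhood `{x | R x y}` is an upper set of `X`.
Then `t(H, G) ≥ p(G) ^ e(H)` with `t(H,G) = hom(H,G) / |V(G)|^|V(H)|`, `p(G) = 2 e(G) / |V(G)|^2`.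
-/

namespace Vale.Agent.Results.P050.FKGHosts

theorem result {A B X Y : Type} [Fintype A] [Fintype B] [Fintype X] [DistribLattice X]
    [Nonempty X] [Fintype Y] [Nonempty Y]
    (RH : A → B → Prop) (R : X → Y → Prop)
    (hmono : ∀ y x x', x ≤ x' → R x y → R x' y)
    (hconn : (P050.bip RH).Connected) (he : 1 ≤ (P050.bip RH).edgeSet.ncard) :
    (2 * ((P050.bip R).edgeSet.ncard : ℝ) / (Fintype.card (X ⊕ Y) : ℝ) ^ 2)
        ^ (P050.bip RH).edgeSet.ncard
      ≤ (Nat.card (P050.bip RH →g P050.bip R) : ℝ)
          / (Fintype.card (X ⊕ Y) : ℝ) ^ Fintype.card (A ⊕ B) := by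
  apply P050.gmainF RH R hmono he
  have h := hconn.card_vert_le_card_edgeSet_add_one
  rw [Nat.card_eq_fintype_card, Fintype.card_sum] at h
  exact h

end Vale.Agent.Results.P050.FKGHosts
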