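import Vale.Agent.Lib.P050.Main

/-!
# P050: Sidorenko's inequality for every bipartite pattern when the host is monotone in one variable

The pattern `H` is the bipartite graph with parts `A`, `B` and edge set `E ⊆ A × B`.
The host is a nonnegative weight `W : X → Y → ℝ` on finite sets, `X` linearly ordered,
such that `x ↦ W x y` is monotone for each `y`.  Then
`t(H, W) ≥ t(K₂, W) ^ e(H)`, where the densities are the normalised sums below.
-/

namespace Vale.Agent.Results.P050.MonotoneHosts

open Finset

theorem result {A B X Y : Type} [Fintype A] [DecidableEq A] [Fintype B] [DecidableEq B]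
    [Fintype X] [LinearOrder X] [Nonempty X] [Fintype Y] [Nonempty Y]
    (E : Finset (A × B)) (W : X → Y → ℝ) (h0 : ∀ x y, 0 ≤ W x y)
    (hm : ∀ y, Monotone (fun x => W x y)) :
    ((∑ x, ∑ y, W x y) / ((Fintype.card X : ℝ) * (Fintype.card Y : ℝ))) ^ E.card
      ≤ (∑ φ : A → X, ∑ ψ : B → Y, ∏ e ∈ E, W (φ e.1) (ψ e.2))
          / ((Fintype.card X : ℝ) ^ Fintype.card A * (Fintype.card Y : ℝ) ^ Fintype.card B) := by
  classical
  have h := P050.main E W h0 hm
  have hN : (0 : ℝ) < (Fintype.card X : ℝ) := by exact_mod_cast Fintype.card_pos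
  have hM : (0 : ℝ) < (Fintype.card Y : ℝ) := by exact_mod_cast Fintype.card_pos
  rw [div_pow, div_le_div_iff₀ (pow_pos (mul_pos hN hM) _)
    (mul_pos (pow_pos hN _) (pow_pos hM _))]
  calc (∑ x, ∑ y, W x y) ^ E.card
        * ((Fintype.card X : ℝ) ^ Fintype.card A * (Fintype.card Y : ℝ) ^ Fintype.card B)
      = (Fintype.card X : ℝ) ^ Fintype.card A * (Fintype.card Y : ℝ) ^ Fintype.card B
        * (∑ x, ∑ y, W x y) ^ E.card := by ring
    _ ≤ _ := h
    _ = _ := by ring

end Vale.Agent.Results.P050.MonotoneHosts
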